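import Vale.Agent.P330.Final

/-! The polynomial size form of the PCP for PPAD conjecture. -/

namespace Vale.Agent.Results.P330.PolySize

open Vale.Agent.P330 Vale.Agent.Lib.TM Vale.Agent.Lib.PCP

theorem result : ∃ (ε δ : ℝ) (p q : Polynomial ℕ) (R : EoL → GCirc) (D : EoL × Asg → List Bool),
    0 < ε ∧ ε < 1 ∧ 0 < δ ∧ δ < 1 ∧ PolyTime R ∧ PolyTime D ∧ ∀ I : EoL, I.Valid →
      (R I).WF ∧ sz (R I) ≤ q.eval (sz I) ∧ (∃ x, (R I).Acc ε δ p x) ∧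
        ∀ x, (R I).Acc ε δ p x → I.Sol (D (I, x)) := by
  obtain ⟨ε, δ, p, R, D, h1, h2, h3, h4, h5, h6, h7⟩ := pcp_ppad
  obtain ⟨q, hq⟩ := ct_poly h5
  exact ⟨ε, δ, p, q, R, D, h1, h2, h3, h4, h5.polyTime, h6.polyTime,
    fun I hI => ⟨(h7 I hI).1, hq I, (h7 I hI).2⟩⟩

end Vale.Agent.Results.P330.PolySize
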