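import Vale.Agent.P330Q.Final

/-! The PCP for PPAD conjecture with quasilinear size. -/

namespace Vale.Agent.Results.P330.Quasi

open Vale.Agent.P330 Vale.Agent.Lib.TM Vale.Agent.Lib.PCP

theorem result :
    ∃ (ε δ : ℝ) (c : ℕ) (p : Polynomial ℕ) (R : EoL → GCirc) (D : EoL × Asg → List Bool),
      0 < ε ∧ ε < 1 ∧ 0 < δ ∧ δ < 1 ∧ PolyTime R ∧ PolyTime D ∧ ∀ I : EoL, I.Valid →
        (R I).WF ∧ (sz (R I) : ℝ) ≤ (sz I : ℝ) * Real.logb 2 (sz I) ^ c ∧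
          (∃ x, (R I).Acc ε δ p x) ∧ ∀ x, (R I).Acc ε δ p x → I.Sol (D (I, x)) := by
  obtain ⟨ε, δ, c, p, R, D, h1, h2, h3, h4, h5, h6, h7⟩ := Q.pcp_quasi
  exact ⟨ε, δ, c, p, R, D, h1, h2, h3, h4, h5.polyTime, h6.polyTime,
    fun I hI => ⟨(h7 I hI).1, Q.real_log (h7 I hI).2.1, (h7 I hI).2.2⟩⟩

end Vale.Agent.Results.P330.Quasi
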